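import Vale.Agent.P117.KR.Defs

/-! # P117 / KR : the lift of an amplitude near the sphere is an amplitude near the cone -/

open MeasureTheory Complex Set
open scoped ENNReal NNReal ContDiff FourierTransform

set_option linter.all false

namespace Vale.Agent.P117.KR

open Vale.Agent.P106.G (E4 cn tl mat4 Amp ampk phk Sq LT cpi)
open Vale.Agent.P117.K (E3 Ams pc Phs SqS xist v1 v2)

theorem Bw0 (l s1 s2 : ℝ) (ζ : E4) : Bw l s1 s2 ζ 0 =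
    (ζ 0 + (ζ 3 + 2 * s1 * ζ 1 + 2 * s2 * ζ 2 + (s1 ^ 2 + s2 ^ 2) * ζ 0)) / (2 * l) := by simp [Bw]
theorem xif0 (l s1 s2 : ℝ) (ζ : E4) : xif l s1 s2 ζ 0 = (ζ 1 + s1 * ζ 0) / l := by simp [xif, tl, Bw]
theorem xif1 (l s1 s2 : ℝ) (ζ : E4) : xif l s1 s2 ζ 1 = (ζ 2 + s2 * ζ 0) / l := by simp [xif, tl, Bw]
theorem xif2 (l s1 s2 : ℝ) (ζ : E4) : xif l s1 s2 ζ 2 =
    (ζ 0 - (ζ 3 + 2 * s1 * ζ 1 + 2 * s2 * ζ 2 + (s1 ^ 2 + s2 ^ 2) * ζ 0)) / (2 * l) := by simp [xif, tl, Bw]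

theorem coord3_le (x : E3) (i : Fin 3) : |x i| ≤ ‖x‖ := by
  rw [← Real.norm_eq_abs]; exact PiLp.norm_apply_le x i

theorem nsq3 (x : E3) : ‖x‖ ^ 2 = x 0 ^ 2 + x 1 ^ 2 + x 2 ^ 2 := by
  rw [EuclideanSpace.norm_sq_eq]
  simp [Fin.sum_univ_three]

/-- all the facts about a point of the support -/
theorem supp_facts {l s1 s2 c1 N2 : ℝ} (hl : 0 < l) {ζ : E4} (hτ : |taf l s1 s2 ζ - 1| ≤ c1 / N2)
    (hs : |‖xif l s1 s2 ζ‖ ^ 2 - 1| ≤ c1 / N2) (hx : ‖xif l s1 s2 ζ - xist‖ ≤ c1) :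
    ζ 0 = l * (taf l s1 s2 ζ + xif l s1 s2 ζ 2) ∧ ζ 1 = l * xif l s1 s2 ζ 0 - s1 * ζ 0 ∧
    ζ 2 = l * xif l s1 s2 ζ 1 - s2 * ζ 0 ∧
    ζ 3 = l * (taf l s1 s2 ζ - xif l s1 s2 ζ 2) - 2 * s1 * ζ 1 - 2 * s2 * ζ 2 - (s1 ^ 2 + s2 ^ 2) * ζ 0 ∧
    |xif l s1 s2 ζ 0 - 4/9| ≤ c1 ∧ |xif l s1 s2 ζ 1 - 4/9| ≤ c1 ∧ |xif l s1 s2 ζ 2 - 7/9| ≤ c1 := by
  have e0 := xif0 l s1 s2 ζ
  have e1 := xif1 l s1 s2 ζ
  have e2 := xif2 l s1 s2 ζ
  have et : taf l s1 s2 ζ = _ := Bw0 l s1 s2 ζ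
  have h0 := (coord3_le (xif l s1 s2 ζ - xist) 0).trans hx
  have h1 := (coord3_le (xif l s1 s2 ζ - xist) 1).trans hx
  have h2 := (coord3_le (xif l s1 s2 ζ - xist) 2).trans hx
  have x0 : xist 0 = 4/9 := by simp [xist]
  have x1 : xist 1 = 4/9 := by simp [xist]
  have x2 : xist 2 = 7/9 := by simp [xist]
  rw [PiLp.sub_apply, x0] at h0
  rw [PiLp.sub_apply, x1] at h1
  rw [PiLp.sub_apply, x2] at h2
  refine ⟨?_, ?_, ?_, ?_, h0, h1, h2⟩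
  · rw [et, e2]; field_simp; ring
  · rw [e0]; field_simp; ring
  · rw [e1]; field_simp; ring
  · rw [et, e2]; field_simp; ring

/-- the floors agree -/
theorem floor_agree {a b δ : ℝ} (h1 : 1/8 ≤ Int.fract a) (h2 : Int.fract a ≤ 7/8) (hab : |b - a| ≤ δ) (hδ : δ < 1/8) :
    ⌊b⌋ = ⌊a⌋ := by
  rw [Int.floor_eq_iff]
  have h3 := Int.floor_add_fract a
  obtain ⟨h4, h5⟩ := abs_le.1 hab
  constructor <;> linarith

theorem slope_diff {N : ℕ} (hN : 4 ≤ N) {τ x0 x2 c1 : ℝ} (hc : 0 < c1) (hc1 : c1 ≤ 1/1000)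
    (hτ : |τ - 1| ≤ c1 / (N:ℝ) ^ 2) (h0 : |x0 - 4/9| ≤ c1) (h2 : |x2 - 7/9| ≤ c1) :
    |N * (x0 / (τ + x2)) - N * (x0 / (1 + x2))| ≤ 1 / 16 := by
  have hNr : (4:ℝ) ≤ N := by exact_mod_cast hN
  have hN0 : (0:ℝ) < N := by linarith
  obtain ⟨a1, a2⟩ := abs_le.1 h0
  obtain ⟨b1, b2⟩ := abs_le.1 h2
  have hcN : c1 / (N:ℝ) ^ 2 ≤ c1 / N := by
    apply div_le_div_of_nonneg_left hc.le hN0
    nlinarith
  have hcN' : c1 / (N:ℝ) ≤ c1 := div_le_self hc.le (by linarith)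
  obtain ⟨t1, t2⟩ := abs_le.1 hτ
  have p1 : 1 ≤ τ + x2 := by linarith
  have p2 : 1 ≤ 1 + x2 := by linarith
  have e : (N:ℝ) * (x0 / (τ + x2)) - N * (x0 / (1 + x2)) = (N * x0 * (1 - τ)) / ((τ + x2) * (1 + x2)) := by
    field_simp
    ring
  rw [e, abs_div, abs_of_pos (by positivity : 0 < (τ + x2) * (1 + x2)), abs_mul, abs_mul, abs_of_pos hN0,
    abs_of_nonneg (by linarith : 0 ≤ x0), abs_sub_comm]
  have hx0 : 0 ≤ x0 := by linarith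
  refine (div_le_self (by positivity) (by nlinarith)).trans ?_
  calc (N:ℝ) * x0 * |τ - 1| ≤ N * 1 * (c1 / (N:ℝ) ^ 2) := by gcongr; linarith
    _ = c1 / N := by field_simp
    _ ≤ 1 / 16 := by linarith

theorem stAMP : StAMP := by
  intro c0 hc0
  set e := min c0 1 with he
  have he0 : 0 < e := lt_min hc0 one_pos
  have he1 : e ≤ 1 := min_le_right _ _
  have hec : e ≤ c0 := min_le_left _ _
  refine ⟨e / 1000, by positivity, by linarith, ?_⟩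
  intro N o1 o2 g hN ho1 ho2 hg
  set c1 := e / 1000 with hc1
  have hc10 : 0 < c1 := by positivity
  have hc11 : c1 ≤ 1/1000 := by linarith
  set l := lam e with hl
  have hl0 : 0 < l := by rw [hl]; unfold lam; positivity
  have hl1 : l ≤ 1 := by rw [hl]; unfold lam; linarith
  have hle : l * (16/9) = 1 + e / 2 := by rw [hl]; unfold lam; ring
  have hNr : (4:ℝ) ≤ N := by exact_mod_cast hN
  have hN0 : (0:ℝ) < N := by linarith
  have hN2 : (0:ℝ) < (N:ℝ) ^ 2 := by positivity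
  set s1 := o1 / N with hs1
  set s2 := o2 / N with hs2
  have s1n : 0 ≤ s1 := div_nonneg ho1.1 hN0.le
  have s2n : 0 ≤ s2 := div_nonneg ho2.1 hN0.le
  have s1l : s1 ≤ 1/8 := by
    rw [hs1, div_le_iff₀ hN0]; linarith [ho1.2]
  have s2l : s2 ≤ 1/8 := by
    rw [hs2, div_le_iff₀ hN0]; linarith [ho2.2]
  have hcN : c1 / (N:ℝ) ^ 2 ≤ c1 := div_le_self hc10.le (by nlinarith)
  -- facts on the support
  have facts : ∀ ζ : E4, |(N:ℝ) ^ 2 * (taf l s1 s2 ζ - 1)| ≤ c1 → g (xif l s1 s2 ζ) ≠ 0 →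
      |taf l s1 s2 ζ - 1| ≤ c1 / (N:ℝ) ^ 2 ∧ |‖xif l s1 s2 ζ‖ ^ 2 - 1| ≤ c1 / (N:ℝ) ^ 2 ∧ ‖xif l s1 s2 ζ - xist‖ ≤ c1 := by
    intro ζ h1 h2
    refine ⟨?_, hg.sph _ h2, hg.loc _ h2⟩
    rw [abs_mul, abs_of_pos hN2] at h1
    rw [le_div_iff₀ hN2]
    linarith
  constructor
  · intro ζ hζ
    unfold lft at hζ
    have hcond : |(N:ℝ) ^ 2 * (taf l s1 s2 ζ - 1)| ≤ c1 := by
      by_contra h
      rw [if_neg h] at hζ
      exact hζ rfl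
    rw [if_pos hcond] at hζ
    obtain ⟨f1, f2, f3⟩ := facts ζ hcond hζ
    obtain ⟨z0, z1, z2, z3, x0, x1, x2⟩ := supp_facts hl0 f1 f2 f3
    set τ := taf l s1 s2 ζ with hτ
    set ξ := xif l s1 s2 ζ with hξ
    obtain ⟨t1, t2⟩ := abs_le.1 f1
    obtain ⟨a1, a2⟩ := abs_le.1 x0
    obtain ⟨b1, b2⟩ := abs_le.1 x1
    obtain ⟨d1, d2⟩ := abs_le.1 x2
    have q1 : 16/9 - 2 * c1 ≤ τ + ξ 2 := by linarith
    have q2 : τ + ξ 2 ≤ 16/9 + 2 * c1 := by linarith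
    have hlc : l * (2 * c1) ≤ e / 2 := by
      calc l * (2 * c1) ≤ 1 * (2 * c1) := by gcongr
        _ ≤ e / 2 := by rw [hc1]; linarith
    have z0a : 1 ≤ ζ 0 := by
      rw [z0]
      calc 1 ≤ l * (16/9) - l * (2 * c1) := by linarith
        _ = l * (16/9 - 2 * c1) := by ring
        _ ≤ l * (τ + ξ 2) := by gcongr
    have z0b : ζ 0 ≤ 1 + c0 := by
      rw [z0]
      calc l * (τ + ξ 2) ≤ l * (16/9 + 2 * c1) := by gcongr
        _ = l * (16/9) + l * (2 * c1) := by ring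
        _ ≤ 1 + c0 := by linarith
    have hsum0 : 0 < τ + ξ 2 := by linarith
    have gen : ∀ (s x z : ℝ), 0 ≤ s → s ≤ 1/8 → 4/9 - c1 ≤ x → x ≤ 4/9 + c1 → z = l * x - s * ζ 0 → 0 ≤ z ∧ z < ζ 0 := by
      intro s x z hs0 hs8 hx1 hx2 hz
      have hz' : z = l * (x - s * (τ + ξ 2)) := by rw [hz, z0]; ring
      have hle' : s * (τ + ξ 2) ≤ 1/8 * (16/9 + 2 * c1) := by gcongr
      have hge' : 0 ≤ s * (τ + ξ 2) := by positivity
      constructor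
      · rw [hz']; apply mul_nonneg hl0.le; linarith
      · rw [hz', z0]
        apply mul_lt_mul_of_pos_left _ hl0
        linarith
    refine ⟨⟨z0a, z0b⟩, gen s1 (ξ 0) (ζ 1) s1n s1l (by linarith) (by linarith) z1,
      gen s2 (ξ 1) (ζ 2) s2n s2l (by linarith) (by linarith) z2, ?_⟩
    have hz00 : ζ 0 ≠ 0 := by linarith
    have e1 : ζ 3 - (ζ 1 ^ 2 + ζ 2 ^ 2) / ζ 0 = l * ((τ ^ 2 - 1) - (‖ξ‖ ^ 2 - 1)) / (τ + ξ 2) := by
      rw [nsq3]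
      have e2 : (ζ 1 ^ 2 + ζ 2 ^ 2) / ζ 0 = (l * ξ 0 ^ 2 + l * ξ 1 ^ 2) / (τ + ξ 2) - 2 * s1 * (l * ξ 0) - 2 * s2 * (l * ξ 1) +
          (s1 ^ 2 + s2 ^ 2) * ζ 0 := by
        rw [z1, z2]
        rw [z0]
        field_simp
        ring
      rw [e2, z3, z1, z2]
      rw [z0]
      field_simp
      ring
    rw [e1, abs_div, abs_mul, abs_of_pos hl0, abs_of_pos hsum0]
    have e3 : |(τ ^ 2 - 1) - (‖ξ‖ ^ 2 - 1)| ≤ 4 * (c1 / (N:ℝ) ^ 2) := by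
      have h3 : |τ ^ 2 - 1| ≤ 3 * (c1 / (N:ℝ) ^ 2) := by
        rw [show τ ^ 2 - 1 = (τ + 1) * (τ - 1) by ring, abs_mul, abs_of_nonneg (by linarith : 0 ≤ τ + 1)]
        gcongr
        linarith
      exact (abs_sub _ _).trans (by linarith)
    have e4 : l * |(τ ^ 2 - 1) - (‖ξ‖ ^ 2 - 1)| ≤ 1 * (4 * (c1 / (N:ℝ) ^ 2)) := by gcongr
    refine (div_le_self (by positivity) (by linarith)).trans (e4.trans ?_)
    rw [one_mul, ← mul_div_assoc, inv_eq_one_div]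
    gcongr
    linarith
  · intro k
    funext ζ
    unfold ampk lft
    by_cases hcond : |(N:ℝ) ^ 2 * (taf l s1 s2 ζ - 1)| ≤ c1
    · rw [if_pos hcond, if_pos hcond]
      by_cases hg0 : g (xif l s1 s2 ζ) = 0
      · unfold pc
        rw [hg0]
        simp
      · obtain ⟨f1, f2, f3⟩ := facts ζ hcond hg0
        obtain ⟨z0, z1, z2, z3, x0, x1, x2⟩ := supp_facts hl0 f1 f2 f3
        have g1 := hg.grid1 _ hg0
        have g2 := hg.grid2 _ hg0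
        obtain ⟨t1, t2⟩ := abs_le.1 f1
        obtain ⟨d1, d2⟩ := abs_le.1 x2
        have hsum : 0 < taf l s1 s2 ζ + xif l s1 s2 ζ 2 := by linarith
        have hNs1 : (N:ℝ) * s1 = o1 := by rw [hs1]; field_simp
        have hNs2 : (N:ℝ) * s2 = o2 := by rw [hs2]; field_simp
        have w1 : (N:ℝ) * (ζ 1 / ζ 0) = N * (xif l s1 s2 ζ 0 / (taf l s1 s2 ζ + xif l s1 s2 ζ 2)) - o1 := by
          rw [z1, z0, ← hNs1]
          field_simp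
        have w2 : (N:ℝ) * (ζ 2 / ζ 0) = N * (xif l s1 s2 ζ 1 / (taf l s1 s2 ζ + xif l s1 s2 ζ 2)) - o2 := by
          rw [z2, z0, ← hNs2]
          field_simp
        have k1 : ⌊(N:ℝ) * (ζ 1 / ζ 0)⌋ = ⌊N * v1 (xif l s1 s2 ζ) - o1⌋ := by
          apply floor_agree g1.1 g1.2 (δ := 1/16) _ (by norm_num)
          rw [w1]
          have h := slope_diff hN hc10 hc11 f1 x0 x2
          unfold v1
          rwa [sub_sub_sub_cancel_right]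
        have k2 : ⌊(N:ℝ) * (ζ 2 / ζ 0)⌋ = ⌊N * v2 (xif l s1 s2 ζ) - o2⌋ := by
          apply floor_agree g2.1 g2.2 (δ := 1/16) _ (by norm_num)
          rw [w2]
          have h := slope_diff hN hc10 hc11 f1 x1 x2
          unfold v2
          rwa [sub_sub_sub_cancel_right]
        unfold pc cpi
        rw [k1, k2]
    · rw [if_neg hcond, if_neg hcond]
      simp

end Vale.Agent.P117.KR
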