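import Vale.Agent.P117.KR.Defs

/-! # P117 / KR : change of variables -/

open MeasureTheory Complex Set
open scoped ENNReal NNReal ContDiff FourierTransform

set_option linter.all false

namespace Vale.Agent.P117.KR

open Vale.Agent.P106.G (E4 cn tl mat4 mat4_apply mat4_det lintegral_mat4 integral_mat4 integrable_mat4 ext4 cn0 cn1 cn2 cn3
  tl0 tl1 tl2 lint4 lint4' int4 cn_tl tl_cn inner_cn inner4 measurable_cn mat4_emb q4 mp_q4 q4_symm q4_apply)
open Vale.Agent.P106.Tri (ec norm_ec enorm_ec ec_add ec_zero continuous_ec)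
open Vale.Agent.P117.K (E3 Ams pc Phs SqS)

theorem Af_det (l s1 s2 : ℝ) : (Af l s1 s2).det = -(2 * l ^ 4) := by
  unfold Af
  rw [Matrix.det_succ_row_zero]
  simp [Fin.sum_univ_four, Matrix.det_fin_three, Fin.succAbove, Matrix.submatrix]
  ring

theorem Af_apply (l s1 s2 : ℝ) (w : E4) : mat4 (Af l s1 s2) w =
    !₂[l * (w 0 + w 3), l * (w 1 - s1 * (w 0 + w 3)), l * (w 2 - s2 * (w 0 + w 3)),
      l * (w 0 - w 3 - 2 * s1 * w 1 - 2 * s2 * w 2 + (s1 ^ 2 + s2 ^ 2) * (w 0 + w 3))] := by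
  ext i
  rw [mat4_apply]
  fin_cases i
  · simp [Af]; ring
  · simp [Af]; ring
  · simp [Af]; ring
  · simp [Af]; ring

theorem Bw_Af {l : ℝ} (hl : l ≠ 0) (s1 s2 : ℝ) (w : E4) : Bw l s1 s2 (mat4 (Af l s1 s2) w) = w := by
  rw [Af_apply]
  unfold Bw
  ext i
  fin_cases i
  · simp; field_simp; ring
  · simp; field_simp; ring
  · simp; field_simp; ring
  · simp; field_simp; ring

theorem Af_Bw {l : ℝ} (hl : l ≠ 0) (s1 s2 : ℝ) (w : E4) : mat4 (Af l s1 s2) (Bw l s1 s2 w) = w := by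
  rw [Af_apply]
  unfold Bw
  ext i
  fin_cases i
  · simp; field_simp; ring
  · simp; field_simp; ring
  · simp; field_simp; ring
  · simp; field_simp; ring

theorem inner_Af (l s1 s2 : ℝ) (w z : E4) : inner ℝ (mat4 (Af l s1 s2) w) z = inner ℝ w (cn (tz l s1 s2 z) (xz l s1 s2 z)) := by
  rw [Af_apply, inner4, inner4, cn0, cn1, cn2, cn3]
  unfold tz xz
  simp
  ring

/-- matrix of `Zx` -/
noncomputable def Zm (l s1 s2 : ℝ) : Matrix (Fin 4) (Fin 4) ℝ :=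
  !![(1 + (s1 ^ 2 + s2 ^ 2)) / (2 * l), s1 / l, s2 / l, (1 - (s1 ^ 2 + s2 ^ 2)) / (2 * l);
    s1 / l, 1 / l, 0, -(s1 / l); s2 / l, 0, 1 / l, -(s2 / l); 1 / (2 * l), 0, 0, -(1 / (2 * l))]

theorem Zm_det {l : ℝ} (hl : l ≠ 0) (s1 s2 : ℝ) : (Zm l s1 s2).det = -(2 * l ^ 4)⁻¹ := by
  unfold Zm
  rw [Matrix.det_succ_row_zero]
  simp [Fin.sum_univ_four, Matrix.det_fin_three, Fin.succAbove, Matrix.submatrix]
  field_simp
  ring

theorem Zx_eq (l s1 s2 t : ℝ) (x : E3) : Zx l s1 s2 t x = mat4 (Zm l s1 s2) (cn t x) := by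
  ext i
  rw [mat4_apply, cn0, cn1, cn2, cn3]
  unfold Zx Zm
  fin_cases i
  · simp; ring
  · simp; ring
  · simp; ring
  · simp; ring

theorem xz_Zx {l : ℝ} (hl : l ≠ 0) (s1 s2 t : ℝ) (x : E3) : xz l s1 s2 (Zx l s1 s2 t x) = x := by
  unfold xz Zx
  ext i
  fin_cases i
  · simp; field_simp
  · simp; field_simp
  · simp; field_simp; ring

theorem tz_Zx {l : ℝ} (hl : l ≠ 0) (s1 s2 t : ℝ) (x : E3) : tz l s1 s2 (Zx l s1 s2 t x) = t := by
  unfold tz Zx
  simp; field_simp; ring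

theorem Zx_xz {l : ℝ} (hl : l ≠ 0) (s1 s2 : ℝ) (z : E4) : Zx l s1 s2 (tz l s1 s2 z) (xz l s1 s2 z) = z := by
  unfold xz tz Zx
  ext i
  fin_cases i
  · simp; field_simp; ring
  · simp; field_simp; ring
  · simp; field_simp; ring
  · simp; field_simp; ring

theorem Zx_sub (l s1 s2 t t' : ℝ) (x x' : E3) : Zx l s1 s2 t x - Zx l s1 s2 t' x' = Zx l s1 s2 (t - t') (x - x') := by
  unfold Zx
  ext i
  fin_cases i
  · simp; ring
  · simp; ring
  · simp; ring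
  · simp; ring

theorem measurable_Zx (l s1 s2 : ℝ) : Measurable (fun p : ℝ × E3 => Zx l s1 s2 p.1 p.2) := by
  simp_rw [Zx_eq]
  exact ((mat4 (Zm l s1 s2)).continuous_of_finiteDimensional.measurable).comp measurable_cn

theorem stCV : StCV := by
  intro l s1 s2 hl F hF
  have hd : (Zm l s1 s2).det ≠ 0 := by rw [Zm_det hl.ne']; simp [hl.ne']
  have h := lintegral_mat4 hd F
  rw [Zm_det hl.ne', inv_neg, inv_inv, abs_neg, abs_of_pos (by positivity)] at h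
  have hm : Measurable (fun y : E4 => F (mat4 (Zm l s1 s2) y)) :=
    hF.comp ((mat4 (Zm l s1 s2)).continuous_of_finiteDimensional.measurable)
  have h2 : ∫⁻ y : E4, F (mat4 (Zm l s1 s2) y) = ∫⁻ x : E3, ∫⁻ t : ℝ, F (Zx l s1 s2 t x) := by
    rw [lint4' hm]
    simp_rw [Zx_eq]
  rw [← h2, h, ← mul_assoc, ← ENNReal.ofReal_mul (by positivity), inv_mul_cancel₀ (by positivity), ENNReal.ofReal_one, one_mul]

end Vale.Agent.P117.KR
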