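import Vale.Agent.P106.G.Slice
import Vale.Agent.P106.G.Rescale
import Vale.Agent.P117.K.Defs

/-! # P117 / KR : the lift to the cone (definitions and interfaces for `StREF3`) -/

open MeasureTheory Complex Set
open scoped ENNReal NNReal ContDiff FourierTransform

set_option linter.all false

namespace Vale.Agent.P117.KR

open Vale.Agent.P106.G (E4 cn tl mat4 Amp ampk phk Sq LT)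
open Vale.Agent.P117.K (E3 Ams pc Phs SqS)

/-- matrix of the frequency map `(τ, ξ) ↦ ζ` -/
noncomputable def Af (l s1 s2 : ℝ) : Matrix (Fin 4) (Fin 4) ℝ :=
  !![l, 0, 0, l; -(l * s1), l, 0, -(l * s1); -(l * s2), 0, l, -(l * s2);
    l * (1 + (s1 ^ 2 + s2 ^ 2)), -(2 * l * s1), -(2 * l * s2), l * (s1 ^ 2 + s2 ^ 2 - 1)]

/-- inverse frequency map `ζ ↦ (τ, ξ)` -/
noncomputable def Bw (l s1 s2 : ℝ) (ζ : E4) : E4 :=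
  !₂[(ζ 0 + (ζ 3 + 2 * s1 * ζ 1 + 2 * s2 * ζ 2 + (s1 ^ 2 + s2 ^ 2) * ζ 0)) / (2 * l), (ζ 1 + s1 * ζ 0) / l, (ζ 2 + s2 * ζ 0) / l,
    (ζ 0 - (ζ 3 + 2 * s1 * ζ 1 + 2 * s2 * ζ 2 + (s1 ^ 2 + s2 ^ 2) * ζ 0)) / (2 * l)]

/-- `τ` and `ξ` as functions of `ζ` -/
noncomputable def taf (l s1 s2 : ℝ) (ζ : E4) : ℝ := Bw l s1 s2 ζ 0
noncomputable def xif (l s1 s2 : ℝ) (ζ : E4) : E3 := tl (Bw l s1 s2 ζ)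

/-- the dual map `z ↦ (t, x)` : time -/
noncomputable def tz (l s1 s2 : ℝ) (z : E4) : ℝ := l * (z 0 - s1 * z 1 - s2 * z 2 + (s1 ^ 2 + s2 ^ 2) * z 3 + z 3)

/-- the dual map `z ↦ (t, x)` : space -/
noncomputable def xz (l s1 s2 : ℝ) (z : E4) : E3 :=
  !₂[l * (z 1 - 2 * s1 * z 3), l * (z 2 - 2 * s2 * z 3), l * (z 0 - s1 * z 1 - s2 * z 2 + (s1 ^ 2 + s2 ^ 2) * z 3 - z 3)]

/-- the inverse dual map `(t, x) ↦ z` -/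
noncomputable def Zx (l s1 s2 : ℝ) (t : ℝ) (x : E3) : E4 :=
  !₂[(t + x 2) / (2 * l) + s1 * (x 0 / l) + s2 * (x 1 / l) + (s1 ^ 2 + s2 ^ 2) * ((t - x 2) / (2 * l)),
    x 0 / l + 2 * s1 * ((t - x 2) / (2 * l)), x 1 / l + 2 * s2 * ((t - x 2) / (2 * l)), (t - x 2) / (2 * l)]

/-- the lift of `g` -/
noncomputable def lft (l s1 s2 c : ℝ) (N : ℕ) (g : E3 → ℂ) (ζ : E4) : ℂ := by
  classical exact if |(N:ℝ) ^ 2 * (taf l s1 s2 ζ - 1)| ≤ c then g (xif l s1 s2 ζ) else 0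

/-- the dilation -/
noncomputable def lam (c0 : ℝ) : ℝ := 9 / 16 * (1 + c0 / 2)

/-- [P1] Fourier transform and change of variables -/
def StFT : Prop := ∀ (l s1 s2 c : ℝ) (N : ℕ) (g : E3 → ℂ), 0 < l → 0 < c → c ≤ 1 / 16 → 1 ≤ N → Measurable g → Integrable g →
  (∀ z, ‖𝓕⁻ (lft l s1 s2 c N g) z‖ₑ ≤ ENNReal.ofReal (4 * l ^ 4 * c / (N:ℝ) ^ 2) * ‖𝓕⁻ g (xz l s1 s2 z)‖ₑ) ∧
  (∀ z, |tz l s1 s2 z| ≤ (N:ℝ) ^ 2 →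
    ENNReal.ofReal (2 * l ^ 4 * c / (N:ℝ) ^ 2) * ‖𝓕⁻ g (xz l s1 s2 z)‖ₑ ≤ ‖𝓕⁻ (lft l s1 s2 c N g) z‖ₑ) ∧
  (∫⁻ ζ, ‖lft l s1 s2 c N g ζ‖ₑ ^ 2 = ENNReal.ofReal (4 * l ^ 4 * c / (N:ℝ) ^ 2) * ∫⁻ ξ, ‖g ξ‖ₑ ^ 2) ∧
  Measurable (lft l s1 s2 c N g) ∧ Integrable (lft l s1 s2 c N g)

/-- [P1'] change of variables in the physical space -/
def StCV : Prop := ∀ (l s1 s2 : ℝ), 0 < l → ∀ F : E4 → ℝ≥0∞, Measurable F →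
  ∫⁻ z, F z = ENNReal.ofReal ((2 * l ^ 4)⁻¹) * ∫⁻ x : E3, ∫⁻ t : ℝ, F (Zx l s1 s2 t x)

/-- [P2] the lift of a sphere amplitude is a cone amplitude, and the pieces match -/
def StAMP : Prop := ∀ c0 : ℝ, 0 < c0 → ∃ c1 : ℝ, 0 < c1 ∧ c1 ≤ 1 / 100 ∧ ∀ (N : ℕ) (o1 o2 : ℝ) (g : E3 → ℂ), 4 ≤ N →
  o1 ∈ Icc (0:ℝ) (1/2) → o2 ∈ Icc (0:ℝ) (1/2) → Ams c1 N o1 o2 g →
  (∀ ζ, lft (lam (min c0 1)) (o1 / N) (o2 / N) c1 N g ζ ≠ 0 → (1 ≤ ζ 0 ∧ ζ 0 ≤ 1 + c0) ∧ (0 ≤ ζ 1 ∧ ζ 1 < ζ 0) ∧ (0 ≤ ζ 2 ∧ ζ 2 < ζ 0) ∧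
    |ζ 3 - (ζ 1 ^ 2 + ζ 2 ^ 2) / ζ 0| ≤ ((N:ℝ) ^ 2)⁻¹) ∧
  ∀ k, ampk N k (lft (lam (min c0 1)) (o1 / N) (o2 / N) c1 N g) = lft (lam (min c0 1)) (o1 / N) (o2 / N) c1 N (pc N o1 o2 k g)

/-- [P3] the plank weight integrated in time -/
def StWT : Prop := ∀ (Λ : ℝ) (M : ℕ), 1 ≤ Λ → ∃ C : ℝ, 0 ≤ C ∧ ∀ (N : ℕ) (l s1 s2 : ℝ) (k : ℤ × ℤ) (x : E3), 1 ≤ N →
  1 / 2 ≤ l → l ≤ 1 → 0 ≤ s1 → s1 ≤ 1 / (2 * N) → 0 ≤ s2 → s2 ≤ 1 / (2 * N) → k ∈ K.grd N →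
    ∫⁻ t : ℝ, phk Λ (M + 2) N k (Zx l s1 s2 t x) ≤ ENNReal.ofReal C * Phs M N k x

/-- [P4] the square functions -/
def StSQB : Prop := ∀ (Λ c0 : ℝ) (M : ℕ), 1 ≤ Λ → 0 < c0 → ∃ c1 C : ℝ, 0 < c1 ∧ c1 ≤ 1 / 100 ∧ 0 ≤ C ∧
  ∀ (N : ℕ) (o1 o2 : ℝ) (g : E3 → ℂ), 4 ≤ N → o1 ∈ Icc (0:ℝ) (1/2) → o2 ∈ Icc (0:ℝ) (1/2) → Ams c1 N o1 o2 g →
    Amp c0 ((N:ℝ) ^ 2) (lft (lam (min c0 1)) (o1 / N) (o2 / N) c1 N g) ∧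
    ∀ z, Sq Λ (M + 2) N (lft (lam (min c0 1)) (o1 / N) (o2 / N) c1 N g) z ≤
      ENNReal.ofReal (C / (N:ℝ) ^ 4) * SqS M N o1 o2 g (xz (lam (min c0 1)) (o1 / N) (o2 / N) z)

end Vale.Agent.P117.KR
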