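import Vale.Agent.P117.K.L.Wt
import Vale.Agent.P117.KR.Defs

/-! # REF3: [P3] the plank weight -/

open MeasureTheory Complex Set
open scoped ENNReal NNReal ContDiff FourierTransform

set_option linter.all false

namespace Vale.Agent.P117.KR

open Vale.Agent.P106.G (E4 cn tl mat4 Amp ampk phk Sq LT ext4)
open Vale.Agent.P117.K (E3 Ams pc Phs SqS gam)

theorem zz_eq {l : ℝ} (hl : 0 < l) (s1 s2 t : ℝ) (x : E3) : K.Lw.zz l s1 s2 t x = Zx l s1 s2 t x := by
  have hl' : l ≠ 0 := hl.ne'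
  apply ext4
  · show ((t + x 2)/2 + s1 * x 0 + s2 * x 1 + (s1 ^ 2 + s2 ^ 2) * ((t - x 2)/2)) / l = (t + x 2) / (2 * l) + s1 * (x 0 / l) + s2 * (x 1 / l) + (s1 ^ 2 + s2 ^ 2) * ((t - x 2) / (2 * l))
    field_simp
  · show (x 0 + 2 * s1 * ((t - x 2)/2)) / l = x 0 / l + 2 * s1 * ((t - x 2) / (2 * l))
    field_simp
  · show (x 1 + 2 * s2 * ((t - x 2)/2)) / l = x 1 / l + 2 * s2 * ((t - x 2) / (2 * l))
    field_simp
  · show ((t - x 2)/2) / l = (t - x 2) / (2 * l)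
    field_simp

theorem stWT : StWT := by
  intro Λ M hΛ
  refine ⟨(140 * Λ) ^ (M + 2) * Real.pi, by positivity, ?_⟩
  intro N l s1 s2 k x hN hl hl1 hs1 hs1' hs2 hs2' hk
  have hN0 : (0:ℝ) < N := by exact_mod_cast hN
  have h2 : 1 / (2 * (N:ℝ)) ≤ 1 / N := by
    apply one_div_le_one_div_of_le hN0
    linarith
  have := K.Lw.wt_c hΛ (by linarith : 0 < l) (by linarith : l ≤ 2) M hN hk (s1 := s1) (s2 := s2)
    (by rw [abs_of_nonneg hs1]; linarith) (by rw [abs_of_nonneg hs2]; linarith) x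
  simp_rw [zz_eq (show 0 < l by linarith)] at this
  exact this

end Vale.Agent.P117.KR
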