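import Vale.Agent.P106.G.SqR
import Vale.Agent.P106.G.Four4
import Vale.Agent.P117.KR.Defs

/-! # REF3: [P4] the square functions -/

open MeasureTheory Complex Set
open scoped ENNReal NNReal ContDiff FourierTransform

set_option linter.all false

namespace Vale.Agent.P117.KR.SqB

open Vale.Agent.P117.KR

open Vale.Agent.P106.G (E4 cn tl mat4 Amp ampk phk Sq LT ext4 measurable_phk)
open Vale.Agent.P117.K (E3 Ams pc Phs SqS gam den)

theorem xz_Zx {l : ℝ} (hl : 0 < l) (s1 s2 t : ℝ) (x : E3) : xz l s1 s2 (Zx l s1 s2 t x) = x := by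
  have hl' : l ≠ 0 := hl.ne'
  apply PiLp.ext
  intro i
  fin_cases i
  · show l * ((x 0 / l + 2 * s1 * ((t - x 2) / (2 * l))) - 2 * s1 * ((t - x 2) / (2 * l))) = x 0
    field_simp
    ring
  · show l * ((x 1 / l + 2 * s2 * ((t - x 2) / (2 * l))) - 2 * s2 * ((t - x 2) / (2 * l))) = x 1
    field_simp
    ring
  · show l * (((t + x 2) / (2 * l) + s1 * (x 0 / l) + s2 * (x 1 / l) + (s1 ^ 2 + s2 ^ 2) * ((t - x 2) / (2 * l)))
      - s1 * (x 0 / l + 2 * s1 * ((t - x 2) / (2 * l))) - s2 * (x 1 / l + 2 * s2 * ((t - x 2) / (2 * l)))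
      + (s1 ^ 2 + s2 ^ 2) * ((t - x 2) / (2 * l)) - (t - x 2) / (2 * l)) = x 2
    field_simp
    ring

theorem sub_Zx {l : ℝ} (hl : 0 < l) (s1 s2 t : ℝ) (x : E3) (z : E4) :
    z - Zx l s1 s2 t x = Zx l s1 s2 (tz l s1 s2 z - t) (xz l s1 s2 z - x) := by
  have hl' : l ≠ 0 := hl.ne'
  have y0 : (xz l s1 s2 z - x) 0 = l * (z 1 - 2 * s1 * z 3) - x 0 := rfl
  have y1 : (xz l s1 s2 z - x) 1 = l * (z 2 - 2 * s2 * z 3) - x 1 := rfl
  have y2 : (xz l s1 s2 z - x) 2 = l * (z 0 - s1 * z 1 - s2 * z 2 + (s1 ^ 2 + s2 ^ 2) * z 3 - z 3) - x 2 := rfl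
  apply ext4
  · show z 0 - ((t + x 2) / (2 * l) + s1 * (x 0 / l) + s2 * (x 1 / l) + (s1 ^ 2 + s2 ^ 2) * ((t - x 2) / (2 * l)))
      = (tz l s1 s2 z - t + (xz l s1 s2 z - x) 2) / (2 * l) + s1 * ((xz l s1 s2 z - x) 0 / l) + s2 * ((xz l s1 s2 z - x) 1 / l)
        + (s1 ^ 2 + s2 ^ 2) * ((tz l s1 s2 z - t - (xz l s1 s2 z - x) 2) / (2 * l))
    rw [y0, y1, y2, tz]
    field_simp
    ring
  · show z 1 - (x 0 / l + 2 * s1 * ((t - x 2) / (2 * l)))
      = (xz l s1 s2 z - x) 0 / l + 2 * s1 * ((tz l s1 s2 z - t - (xz l s1 s2 z - x) 2) / (2 * l))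
    rw [y0, y2, tz]
    field_simp
    ring
  · show z 2 - (x 1 / l + 2 * s2 * ((t - x 2) / (2 * l)))
      = (xz l s1 s2 z - x) 1 / l + 2 * s2 * ((tz l s1 s2 z - t - (xz l s1 s2 z - x) 2) / (2 * l))
    rw [y1, y2, tz]
    field_simp
    ring
  · show z 3 - (t - x 2) / (2 * l) = (tz l s1 s2 z - t - (xz l s1 s2 z - x) 2) / (2 * l)
    rw [y2, tz]
    field_simp
    ring

theorem cont_xz (l s1 s2 : ℝ) : Continuous (xz l s1 s2) := by
  unfold xz
  refine (PiLp.continuous_toLp 2 _).comp (continuous_pi fun i => ?_)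
  fin_cases i <;> simp <;> fun_prop

theorem cont_Zx (l s1 s2 : ℝ) : Continuous (fun p : ℝ × E3 => Zx l s1 s2 p.1 p.2) := by
  unfold Zx
  refine (PiLp.continuous_toLp 2 _).comp (continuous_pi fun i => ?_)
  fin_cases i <;> simp <;> fun_prop

theorem cont_inv3 {g : E3 → ℂ} (hg : Integrable g) : Continuous (𝓕⁻ g) := by
  have h : 𝓕⁻ g = fun x => 𝓕 g (-x) := by
    ext x
    exact Real.fourierInv_eq_fourier_neg _ _
  rw [h]
  exact (VectorFourier.fourierIntegral_continuous Real.continuous_fourierChar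
    (by exact continuous_inner) hg).comp continuous_neg

theorem pc_eq_indicator (N : ℕ) (o1 o2 : ℝ) (k : ℤ × ℤ) (g : E3 → ℂ) :
    pc N o1 o2 k g = {ξ : E3 | (⌊N * K.v1 ξ - o1⌋, ⌊N * K.v2 ξ - o2⌋) = k}.indicator g := by
  classical
  funext ξ
  unfold pc
  by_cases h : (⌊N * K.v1 ξ - o1⌋, ⌊N * K.v2 ξ - o2⌋) = k
  · rw [if_pos h, indicator_of_mem (by exact h)]
  · rw [if_neg h, indicator_of_notMem (by exact h)]

theorem measurableSet_cell (N : ℕ) (o1 o2 : ℝ) (k : ℤ × ℤ) :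
    MeasurableSet {ξ : E3 | (⌊N * K.v1 ξ - o1⌋, ⌊N * K.v2 ξ - o2⌋) = k} := by
  have h1 : Measurable (fun ξ : E3 => K.v1 ξ) := by unfold K.v1; fun_prop
  have h2 : Measurable (fun ξ : E3 => K.v2 ξ) := by unfold K.v2; fun_prop
  have h3 : Measurable (fun ξ : E3 => (⌊N * K.v1 ξ - o1⌋, ⌊N * K.v2 ξ - o2⌋)) := by fun_prop
  exact h3 (measurableSet_singleton k)

theorem _root_.Vale.Agent.P117.KR.stSQB (hFT : StFT) (hCV : StCV) (hAMP : StAMP) (hWT : StWT) : StSQB := by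
  intro Λ c0 M hΛ hc0
  obtain ⟨c1, hc1, hc1', hA⟩ := hAMP c0 hc0
  obtain ⟨C, hC, hW⟩ := hWT Λ M hΛ
  set l := lam (min c0 1) with hl
  have hm0 : 0 < min c0 1 := lt_min hc0 one_pos
  have hm1 : min c0 1 ≤ 1 := min_le_right _ _
  have hl1 : 1 / 2 ≤ l := by rw [hl, lam]; linarith
  have hl2 : l ≤ 1 := by rw [hl, lam]; linarith
  have hl0 : 0 < l := by linarith
  refine ⟨c1, (4 * l ^ 4 * c1) ^ 2 * (2 * l ^ 4)⁻¹ * C, hc1, hc1', by positivity, ?_⟩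
  intro N o1 o2 g hN ho1 ho2 hg
  obtain ⟨hs, hk⟩ := hA N o1 o2 g hN ho1 ho2 hg
  have hN1 : 1 ≤ N := by omega
  have hN0 : (0:ℝ) < N := by exact_mod_cast hN1
  obtain ⟨-, -, f3, f4, f5⟩ := hFT l (o1 / N) (o2 / N) c1 N g hl0 hc1 (by linarith) hN1 hg.meas hg.int
  refine ⟨⟨f4, f5, ?_, hs⟩, ?_⟩
  · rw [f3]
    exact ENNReal.mul_lt_top ENNReal.ofReal_lt_top hg.sq
  · intro z
    have hterm : ∀ k ∈ K.grd N, ∫⁻ y, ‖𝓕⁻ (ampk N k (lft l (o1 / N) (o2 / N) c1 N g)) y‖ₑ ^ 2 * phk Λ (M + 2) N k (z - y)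
        ≤ ENNReal.ofReal ((4 * l ^ 4 * c1) ^ 2 * (2 * l ^ 4)⁻¹ * C / (N:ℝ) ^ 4) * den M N o1 o2 g k (xz l (o1 / N) (o2 / N) z) := by
      intro k hkk
      rw [hk k]
      have mpc : Measurable (pc N o1 o2 k g) := by
        rw [pc_eq_indicator]; exact hg.meas.indicator (measurableSet_cell N o1 o2 k)
      have ipc : Integrable (pc N o1 o2 k g) := by
        rw [pc_eq_indicator]; exact hg.int.indicator (measurableSet_cell N o1 o2 k)
      obtain ⟨g1, -, -, -, -⟩ := hFT l (o1 / N) (o2 / N) c1 N (pc N o1 o2 k g) hl0 hc1 (by linarith) hN1 mpc ipc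
      have cF := cont_inv3 ipc
      have mG : Measurable (fun y => ‖𝓕⁻ (pc N o1 o2 k g) (xz l (o1 / N) (o2 / N) y)‖ₑ ^ 2 * phk Λ (M + 2) N k (z - y)) := by
        have a1 := (cF.comp (cont_xz l (o1 / N) (o2 / N))).measurable
        have a2 := measurable_phk Λ (M + 2) N k
        exact ((a1.enorm).pow_const 2).mul (a2.comp (measurable_const.sub measurable_id))
      calc ∫⁻ y, ‖𝓕⁻ (lft l (o1 / N) (o2 / N) c1 N (pc N o1 o2 k g)) y‖ₑ ^ 2 * phk Λ (M + 2) N k (z - y)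
          ≤ ∫⁻ y, ENNReal.ofReal (4 * l ^ 4 * c1 / (N:ℝ) ^ 2) ^ 2 * (‖𝓕⁻ (pc N o1 o2 k g) (xz l (o1 / N) (o2 / N) y)‖ₑ ^ 2 * phk Λ (M + 2) N k (z - y)) := by
            refine lintegral_mono fun y => ?_
            rw [← mul_assoc, ← mul_pow]
            gcongr
            exact g1 y
        _ = ENNReal.ofReal (4 * l ^ 4 * c1 / (N:ℝ) ^ 2) ^ 2 * (ENNReal.ofReal ((2 * l ^ 4)⁻¹) * ∫⁻ x : E3, ∫⁻ t : ℝ,
              ‖𝓕⁻ (pc N o1 o2 k g) x‖ₑ ^ 2 * phk Λ (M + 2) N k (Zx l (o1 / N) (o2 / N) (tz l (o1 / N) (o2 / N) z - t) (xz l (o1 / N) (o2 / N) z - x))) := by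
            rw [lintegral_const_mul _ mG, hCV l (o1 / N) (o2 / N) hl0 _ mG]
            congr 2
            refine lintegral_congr fun x => lintegral_congr fun t => ?_
            rw [xz_Zx hl0, sub_Zx hl0]
        _ ≤ ENNReal.ofReal (4 * l ^ 4 * c1 / (N:ℝ) ^ 2) ^ 2 * (ENNReal.ofReal ((2 * l ^ 4)⁻¹) * ∫⁻ x : E3,
              ENNReal.ofReal C * (‖𝓕⁻ (pc N o1 o2 k g) x‖ₑ ^ 2 * Phs M N k (xz l (o1 / N) (o2 / N) z - x))) := by
            gcongr with x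
            have mx : Measurable (fun t : ℝ => phk Λ (M + 2) N k (Zx l (o1 / N) (o2 / N) t (xz l (o1 / N) (o2 / N) z - x))) :=
              (measurable_phk Λ (M + 2) N k).comp ((cont_Zx l (o1 / N) (o2 / N)).measurable.comp (measurable_id.prodMk measurable_const))
            rw [lintegral_const_mul' _ _ (ENNReal.pow_ne_top enorm_ne_top),
              lintegral_sub_left_eq_self (fun t : ℝ => phk Λ (M + 2) N k (Zx l (o1 / N) (o2 / N) t (xz l (o1 / N) (o2 / N) z - x)))]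
            have h4 := hW N l (o1 / N) (o2 / N) k (xz l (o1 / N) (o2 / N) z - x) hN1 hl1 hl2 (div_nonneg ho1.1 hN0.le)
              (by rw [div_le_div_iff₀ hN0 (by positivity)]; nlinarith [ho1.2]) (div_nonneg ho2.1 hN0.le)
              (by rw [div_le_div_iff₀ hN0 (by positivity)]; nlinarith [ho2.2]) hkk
            calc _ ≤ ‖𝓕⁻ (pc N o1 o2 k g) x‖ₑ ^ 2 * (ENNReal.ofReal C * Phs M N k (xz l (o1 / N) (o2 / N) z - x)) := by gcongr
              _ = _ := by ring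
        _ = _ := by
            rw [lintegral_const_mul' _ _ ENNReal.ofReal_ne_top]
            unfold den
            rw [← mul_assoc, ← mul_assoc, ← ENNReal.ofReal_pow (by positivity), ← ENNReal.ofReal_mul (by positivity),
              ← ENNReal.ofReal_mul (by positivity)]
            congr 2
            field_simp
    calc Sq Λ (M + 2) N (lft l (o1 / N) (o2 / N) c1 N g) z
        = ∑ k ∈ K.grd N, ∫⁻ y, ‖𝓕⁻ (ampk N k (lft l (o1 / N) (o2 / N) c1 N g)) y‖ₑ ^ 2 * phk Λ (M + 2) N k (z - y) := rfl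
      _ ≤ ∑ k ∈ K.grd N, ENNReal.ofReal ((4 * l ^ 4 * c1) ^ 2 * (2 * l ^ 4)⁻¹ * C / (N:ℝ) ^ 4) * den M N o1 o2 g k (xz l (o1 / N) (o2 / N) z) :=
          Finset.sum_le_sum hterm
      _ = _ := by rw [← Finset.mul_sum]; rfl

end Vale.Agent.P117.KR.SqB
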