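import Vale.Agent.P117.KR.Cv
import Vale.Agent.P106.G.Ref

/-! # P117 / KR : the refined square function estimate on the sphere from the one on the cone -/

open MeasureTheory Complex Set
open scoped ENNReal NNReal ContDiff FourierTransform

set_option linter.all false

namespace Vale.Agent.P117.KR

open Vale.Agent.P106.G (E4 Amp Sq stREF)
open Vale.Agent.P117.K (E3 Ams pc Phs SqS den grd gam om StREF3)

theorem key_div {A B : ℝ} (hA : 0 < A) (hB : 0 < B) (F S : ℝ≥0∞) :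
    (ENNReal.ofReal A * F) ^ 3 / (ENNReal.ofReal B * S) ^ (1/2 : ℝ) =
      ENNReal.ofReal (A ^ 3 * (B ^ (1/2:ℝ))⁻¹) * (F ^ 3 / S ^ (1/2 : ℝ)) := by
  rw [ENNReal.mul_rpow_of_nonneg _ _ (by norm_num), ENNReal.ofReal_rpow_of_pos hB, mul_pow,
    ← ENNReal.ofReal_pow hA.le, ENNReal.div_eq_inv_mul, ENNReal.div_eq_inv_mul, ENNReal.mul_inv]
  · rw [ENNReal.ofReal_mul (by positivity), ENNReal.ofReal_inv_of_pos (by positivity)]
    ring
  · left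
    rw [ne_eq, ENNReal.ofReal_eq_zero, not_le]
    positivity
  · left
    exact ENNReal.ofReal_ne_top

theorem meas_pc {N : ℕ} {o1 o2 : ℝ} {k : ℤ × ℤ} {g : E3 → ℂ} (hg : Measurable g) : Measurable (pc N o1 o2 k g) := by
  classical
  have h1 : Measurable (fun ξ : E3 => (⌊(N:ℝ) * K.v1 ξ - o1⌋, ⌊(N:ℝ) * K.v2 ξ - o2⌋)) := by
    apply Measurable.prodMk
    · apply Int.measurable_floor.comp
      unfold K.v1
      fun_prop
    · apply Int.measurable_floor.comp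
      unfold K.v2
      fun_prop
  have h2 : MeasurableSet {ξ : E3 | (⌊(N:ℝ) * K.v1 ξ - o1⌋, ⌊(N:ℝ) * K.v2 ξ - o2⌋) = k} := h1 (measurableSet_singleton k)
  have e : pc N o1 o2 k g = {ξ : E3 | (⌊(N:ℝ) * K.v1 ξ - o1⌋, ⌊(N:ℝ) * K.v2 ξ - o2⌋) = k}.indicator g := by
    ext ξ
    unfold pc
    by_cases h : (⌊(N:ℝ) * K.v1 ξ - o1⌋, ⌊(N:ℝ) * K.v2 ξ - o2⌋) = k
    · rw [if_pos h, indicator_of_mem (show ξ ∈ {ξ : E3 | (⌊(N:ℝ) * K.v1 ξ - o1⌋, ⌊(N:ℝ) * K.v2 ξ - o2⌋) = k} from h)]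
    · rw [if_neg h, indicator_of_notMem (show ξ ∉ {ξ : E3 | (⌊(N:ℝ) * K.v1 ξ - o1⌋, ⌊(N:ℝ) * K.v2 ξ - o2⌋) = k} from h)]
  rw [e]
  exact hg.indicator h2

theorem norm_pc_le (N : ℕ) (o1 o2 : ℝ) (k : ℤ × ℤ) (g : E3 → ℂ) (ξ : E3) : ‖pc N o1 o2 k g ξ‖ ≤ ‖g ξ‖ := by
  unfold pc
  split_ifs
  · exact le_rfl
  · rw [norm_zero]; exact norm_nonneg _

theorem int_pc {N : ℕ} {o1 o2 : ℝ} {k : ℤ × ℤ} {g : E3 → ℂ} (hg : Measurable g) (hi : Integrable g) :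
    Integrable (pc N o1 o2 k g) :=
  hi.norm.mono' (meas_pc hg).aestronglyMeasurable (Filter.Eventually.of_forall fun ξ => norm_pc_le N o1 o2 k g ξ)

theorem cont_gam (N : ℕ) (k : ℤ × ℤ) : Continuous (gam N k) := by
  unfold gam
  fun_prop

theorem meas_Phs (M N : ℕ) (k : ℤ × ℤ) : Measurable (Phs M N k) := by
  unfold Phs
  apply ENNReal.measurable_ofReal.comp
  apply Measurable.const_mul
  apply Measurable.inv
  exact (((cont_gam N k).measurable).const_add 1).pow_const M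

theorem meas_SqS {M N : ℕ} {o1 o2 : ℝ} {g : E3 → ℂ} (hg : Measurable g) (hi : Integrable g) :
    Measurable (SqS M N o1 o2 g) := by
  unfold SqS
  apply Finset.measurable_sum
  intro k _
  unfold den
  have h1 : Measurable (fun z : E3 × E3 => ‖𝓕⁻ (pc N o1 o2 k g) z.2‖ₑ ^ 2) :=
    ((Vale.Agent.P117.continuous_fourierInv (int_pc hg hi)).measurable.comp measurable_snd).enorm.pow_const 2
  have h2 : Measurable (fun z : E3 × E3 => Phs M N k (z.1 - z.2)) :=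
    (meas_Phs M N k).comp (measurable_fst.sub measurable_snd)
  exact (h1.mul h2).lintegral_prod_right'

/-- [P5] -/
theorem stREF3_of (hFT : StFT) (hSQ : StSQB) : StREF3 := by
  intro ε M hε
  obtain ⟨K0, c0, Λ, C, hK0, hc0, hΛ, hC, hmain⟩ := stREF ε (M + 2) hε
  obtain ⟨c1, C2, hc1, hc1', hC2, hsq⟩ := hSQ Λ c0 M hΛ hc0
  set l := lam (min c0 1) with hl
  have hl0 : 0 < l := by
    rw [hl]
    unfold lam
    have : 0 < min c0 1 := lt_min hc0 one_pos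
    positivity
  set C3 := max C2 1 with hC3
  have hC30 : 0 < C3 := lt_of_lt_of_le one_pos (le_max_right _ _)
  set κ := 8 * l ^ 12 * c1 ^ 3 * (C3 ^ (1/2:ℝ))⁻¹ with hκ
  have hκ0 : 0 < κ := by positivity
  refine ⟨K0, c1, C * (4 * l ^ 8 * c1) / κ, hK0, hc1, by positivity, ?_⟩
  intro n o1 o2 g hn ho1 ho2 hg
  set N : ℕ := K0 ^ n with hN
  have hN4 : 4 ≤ N := by
    calc 4 = 2 ^ 2 := by norm_num
      _ ≤ K0 ^ 2 := Nat.pow_le_pow_left hK0 2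
      _ ≤ K0 ^ n := Nat.pow_le_pow_right (by omega) hn
  have hNr : (0:ℝ) < N := by
    have : (4:ℝ) ≤ N := by exact_mod_cast hN4
    linarith
  have hNc : ((K0:ℝ) ^ n) = (N:ℝ) := by rw [hN]; push_cast; rfl
  obtain ⟨hamp, hsq'⟩ := hsq N o1 o2 g hN4 ho1 ho2 hg
  obtain ⟨hup, hlow, hL2, hm, hi⟩ := hFT l (o1 / N) (o2 / N) c1 N g hl0 hc1 (by linarith) (by omega) hg.meas hg.int
  set a := lft l (o1 / N) (o2 / N) c1 N g with ha
  have h1 := hmain n a (by rw [hNc]; exact hamp)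
  rw [hL2, hNc] at h1
  -- the integrand on the sphere
  set F : E3 → ℝ≥0∞ := fun x => ‖𝓕⁻ g x‖ₑ with hF
  set S : E3 → ℝ≥0∞ := SqS M N o1 o2 g with hS
  have hFm : Measurable F := (Vale.Agent.P117.continuous_fourierInv hg.int).measurable.enorm
  have hSm : Measurable S := meas_SqS hg.meas hg.int
  set G : E3 → ℝ≥0∞ := fun x => F x ^ 3 / S x ^ (1/2 : ℝ) with hG
  have hGm : Measurable G := (hFm.pow_const 3).div (hSm.pow_const _)
  set A := 2 * l ^ 4 * c1 / (N:ℝ) ^ 2 with hA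
  have hA0 : 0 < A := by positivity
  set B := C3 / (N:ℝ) ^ 4 with hB
  have hB0 : 0 < B := by positivity
  have hAB : A ^ 3 * (B ^ (1/2:ℝ))⁻¹ = κ / (N:ℝ) ^ 4 := by
    have e1 : B ^ (1/2:ℝ) = C3 ^ (1/2:ℝ) / (N:ℝ) ^ 2 := by
      rw [hB, Real.div_rpow hC30.le (by positivity)]
      congr 1
      rw [show (N:ℝ) ^ 4 = ((N:ℝ) ^ 2) ^ 2 by ring, ← Real.sqrt_eq_rpow, Real.sqrt_sq (by positivity)]
    rw [e1, hA, hκ]
    have : C3 ^ (1/2:ℝ) ≠ 0 := by positivity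
    field_simp
    ring
  -- pointwise lower bound
  set H : E4 → ℝ≥0∞ := fun z => {t : ℝ | |t| ≤ (N:ℝ) ^ 2}.indicator (fun _ => ENNReal.ofReal (κ / (N:ℝ) ^ 4)) (tz l (o1/N) (o2/N) z) *
    G (xz l (o1/N) (o2/N) z) with hH
  have htm : Measurable (tz l (o1/N) (o2/N)) := by
    unfold tz
    fun_prop
  have hxm : Measurable (xz l (o1/N) (o2/N)) := by
    unfold xz
    fun_prop
  have hts : MeasurableSet {t : ℝ | |t| ≤ (N:ℝ) ^ 2} := measurableSet_le (by fun_prop) measurable_const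
  have hHm : Measurable H := by
    apply Measurable.mul
    · exact (measurable_const.indicator hts).comp htm
    · exact hGm.comp hxm
  have hle : ∀ z, H z ≤ ‖𝓕⁻ a z‖ₑ ^ 3 / Sq Λ (M + 2) (K0 ^ n) a z ^ (1/2 : ℝ) := by
    intro z
    simp only [hH]
    by_cases hz : |tz l (o1/N) (o2/N) z| ≤ (N:ℝ) ^ 2
    · rw [indicator_of_mem (show tz l (o1/N) (o2/N) z ∈ {t : ℝ | |t| ≤ (N:ℝ) ^ 2} from hz), ← hAB]
      simp only [hG]
      rw [← key_div hA0 hB0]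
      apply ENNReal.div_le_div
      · gcongr
        exact hlow z hz
      · apply ENNReal.rpow_le_rpow _ (by norm_num)
        refine (hsq' z).trans (mul_le_mul' (ENNReal.ofReal_le_ofReal ?_) le_rfl)
        rw [hB]
        have : C2 ≤ C3 := le_max_left C2 1
        gcongr
    · rw [indicator_of_notMem (show tz l (o1/N) (o2/N) z ∉ {t : ℝ | |t| ≤ (N:ℝ) ^ 2} from hz), zero_mul]
      exact zero_le
  have h2 : ∫⁻ z, H z ≤ ENNReal.ofReal (C * (N:ℝ) ^ ε) * (ENNReal.ofReal (4 * l ^ 4 * c1 / (N:ℝ) ^ 2) * ∫⁻ ξ, ‖g ξ‖ₑ ^ 2) :=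
    (lintegral_mono hle).trans h1
  rw [stCV l (o1/N) (o2/N) hl0 H hHm] at h2
  have h3 : ∀ x : E3, ∫⁻ t : ℝ, H (Zx l (o1/N) (o2/N) t x) = ENNReal.ofReal (κ / (N:ℝ) ^ 4 * (2 * (N:ℝ) ^ 2)) * G x := by
    intro x
    simp only [hH]
    simp_rw [tz_Zx hl0.ne', xz_Zx hl0.ne']
    rw [lintegral_mul_const _ (measurable_const.indicator hts), lintegral_indicator hts, setLIntegral_const]
    congr 1
    have e2 : {t : ℝ | |t| ≤ (N:ℝ) ^ 2} = Icc (-(N:ℝ) ^ 2) ((N:ℝ) ^ 2) := by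
      ext t
      rw [mem_setOf_eq, abs_le, mem_Icc]
    rw [e2, Real.volume_Icc, ← ENNReal.ofReal_mul (by positivity)]
    congr 2
    ring
  simp_rw [h3] at h2
  set p := (2 * l ^ 4)⁻¹ * (κ / (N:ℝ) ^ 4 * (2 * (N:ℝ) ^ 2)) with hp
  have hp0 : 0 < p := by positivity
  have h2' : ENNReal.ofReal p * ∫⁻ x, G x ≤
      ENNReal.ofReal (C * (N:ℝ) ^ ε * (4 * l ^ 4 * c1 / (N:ℝ) ^ 2)) * ∫⁻ ξ, ‖g ξ‖ₑ ^ 2 := by
    rw [lintegral_const_mul _ hGm] at h2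
    calc ENNReal.ofReal p * ∫⁻ x, G x = ENNReal.ofReal ((2 * l ^ 4)⁻¹) * (ENNReal.ofReal (κ / (N:ℝ) ^ 4 * (2 * (N:ℝ) ^ 2)) * ∫⁻ x, G x) := by
          rw [hp, ENNReal.ofReal_mul (by positivity), mul_assoc]
      _ ≤ ENNReal.ofReal (C * (N:ℝ) ^ ε) * (ENNReal.ofReal (4 * l ^ 4 * c1 / (N:ℝ) ^ 2) * ∫⁻ ξ, ‖g ξ‖ₑ ^ 2) := h2
      _ = _ := by rw [← mul_assoc, ← ENNReal.ofReal_mul (by positivity)]
  have h4 : ∫⁻ x, G x = ENNReal.ofReal p⁻¹ * (ENNReal.ofReal p * ∫⁻ x, G x) := by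
    rw [← mul_assoc, ← ENNReal.ofReal_mul (by positivity), inv_mul_cancel₀ hp0.ne', ENNReal.ofReal_one, one_mul]
  calc ∫⁻ x, ‖𝓕⁻ g x‖ₑ ^ 3 / SqS M N o1 o2 g x ^ (1/2 : ℝ) = ∫⁻ x, G x := rfl
    _ = ENNReal.ofReal p⁻¹ * (ENNReal.ofReal p * ∫⁻ x, G x) := h4
    _ ≤ ENNReal.ofReal p⁻¹ * (ENNReal.ofReal (C * (N:ℝ) ^ ε * (4 * l ^ 4 * c1 / (N:ℝ) ^ 2)) * ∫⁻ ξ, ‖g ξ‖ₑ ^ 2) := by
        gcongr
    _ = _ := by
        rw [← mul_assoc, ← ENNReal.ofReal_mul (by positivity), hNc]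
        congr 2
        rw [hp]
        field_simp

end Vale.Agent.P117.KR
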