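import Vale.Agent.P117.KR.Ft
import Vale.Agent.P117.KR.Cv
import Vale.Agent.P117.KR.Amp
import Vale.Agent.P117.KR.P3
import Vale.Agent.P117.KR.P4
import Vale.Agent.P117.KR.P5

/-! # P117 / KR : the refined square function estimate on the sphere -/

namespace Vale.Agent.P117.KR

theorem stREF3 : Vale.Agent.P117.K.StREF3 := stREF3_of stFT (stSQB stFT stCV stAMP stWT)

end Vale.Agent.P117.KR
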