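import Vale.Agent.P117.KR.Cv

/-! # P117 / KR : Fourier transform of the lift -/

open MeasureTheory Complex Set
open scoped ENNReal NNReal ContDiff FourierTransform

set_option linter.all false

namespace Vale.Agent.P117.KR

open Vale.Agent.P106.G (E4 cn tl mat4 mat4_apply mat4_det lintegral_mat4 integral_mat4 integrable_mat4 ext4 cn0 cn1 cn2 cn3
  tl0 tl1 tl2 lint4 lint4' int4 cn_tl tl_cn inner_cn inner4 measurable_cn mat4_emb q4 mp_q4 q4_symm q4_apply)
open Vale.Agent.P106.Tri (ec norm_ec enorm_ec ec_add ec_zero continuous_ec)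
open Vale.Agent.P117.K (E3 Ams pc Phs SqS)

/-- the lift in straight coordinates -/
noncomputable def bst (c : ℝ) (N : ℕ) (g : E3 → ℂ) (w : E4) : ℂ :=
  (Icc (1 - c / (N:ℝ) ^ 2) (1 + c / (N:ℝ) ^ 2)).indicator (fun _ => g (tl w)) (w 0)

theorem cond_iff {c : ℝ} {N : ℕ} (hN : 1 ≤ N) (τ : ℝ) :
    |(N:ℝ) ^ 2 * (τ - 1)| ≤ c ↔ τ ∈ Icc (1 - c / (N:ℝ) ^ 2) (1 + c / (N:ℝ) ^ 2) := by
  have hp : (0:ℝ) < (N:ℝ) ^ 2 := by
    have : (0:ℝ) < N := by exact_mod_cast hN
    positivity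
  rw [abs_le, mem_Icc]
  constructor
  · rintro ⟨h1, h2⟩
    constructor
    · have : -(c / (N:ℝ) ^ 2) ≤ τ - 1 := by rw [← neg_div, div_le_iff₀ hp]; linarith
      linarith
    · have : τ - 1 ≤ c / (N:ℝ) ^ 2 := by rw [le_div_iff₀ hp]; linarith
      linarith
  · rintro ⟨h1, h2⟩
    have e : c / (N:ℝ) ^ 2 * (N:ℝ) ^ 2 = c := by field_simp
    constructor
    · have := mul_le_mul_of_nonneg_right (show -(c / (N:ℝ) ^ 2) ≤ τ - 1 by linarith) hp.le
      rw [neg_mul, e] at this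
      linarith
    · have := mul_le_mul_of_nonneg_right (show τ - 1 ≤ c / (N:ℝ) ^ 2 by linarith) hp.le
      rw [e] at this
      linarith

theorem lft_eq {c : ℝ} {N : ℕ} (hN : 1 ≤ N) (l s1 s2 : ℝ) (g : E3 → ℂ) (ζ : E4) :
    lft l s1 s2 c N g ζ = bst c N g (Bw l s1 s2 ζ) := by
  unfold lft bst taf xif
  by_cases h : |(N:ℝ) ^ 2 * (Bw l s1 s2 ζ 0 - 1)| ≤ c
  · rw [if_pos h, indicator_of_mem ((cond_iff hN _).1 h)]
  · rw [if_neg h, indicator_of_notMem (fun h2 => h ((cond_iff hN _).2 h2))]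

theorem bst_cn (c : ℝ) (N : ℕ) (g : E3 → ℂ) (τ : ℝ) (ξ : E3) :
    bst c N g (cn τ ξ) = (Icc (1 - c / (N:ℝ) ^ 2) (1 + c / (N:ℝ) ^ 2)).indicator (fun _ => (1:ℂ)) τ * g ξ := by
  unfold bst
  rw [cn0, tl_cn]
  by_cases h : τ ∈ Icc (1 - c / (N:ℝ) ^ 2) (1 + c / (N:ℝ) ^ 2)
  · rw [indicator_of_mem h, indicator_of_mem h, one_mul]
  · rw [indicator_of_notMem h, indicator_of_notMem h, zero_mul]

theorem measurable_tl : Measurable tl := by
  have : tl = fun x => (q4 x).2 := by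
    ext1 x; rw [q4_apply]
  rw [this]
  exact measurable_snd.comp q4.measurable

theorem measurable_bst (c : ℝ) (N : ℕ) {g : E3 → ℂ} (hg : Measurable g) : Measurable (bst c N g) := by
  have : bst c N g = fun w => (Icc (1 - c / (N:ℝ) ^ 2) (1 + c / (N:ℝ) ^ 2)).indicator (fun _ => (1:ℂ)) (w 0) * g (tl w) := by
    ext1 w
    rw [← bst_cn, cn_tl]
  rw [this]
  have h0 : Measurable (fun w : E4 => w 0) := by fun_prop
  exact ((measurable_const.indicator measurableSet_Icc).comp h0).mul (hg.comp measurable_tl)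

theorem integrable_ind (c : ℝ) (N : ℕ) :
    Integrable ((Icc (1 - c / (N:ℝ) ^ 2) (1 + c / (N:ℝ) ^ 2)).indicator (fun _ => (1:ℂ))) := by
  rw [integrable_indicator_iff measurableSet_Icc]
  exact integrableOn_const (by simp) (by simp)

theorem integrable_of_cn {F : E4 → ℂ} (hF : Integrable (fun p : ℝ × E3 => F (cn p.1 p.2)) (volume.prod volume)) : Integrable F := by
  have h := mp_q4.symm.integrable_comp_emb q4.symm.measurableEmbedding (g := F)
  refine h.1 ?_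
  refine hF.congr ?_
  filter_upwards with p
  simp only [Function.comp, q4_symm]

theorem integrable_bst (c : ℝ) (N : ℕ) {g : E3 → ℂ} (hg : Integrable g) : Integrable (bst c N g) := by
  refine integrable_of_cn ?_
  simp_rw [bst_cn]
  exact (integrable_ind c N).mul_prod hg

/-- the time factor -/
noncomputable def mt (c : ℝ) (N : ℕ) (t : ℝ) : ℂ := ∫ τ in Icc (1 - c / (N:ℝ) ^ 2) (1 + c / (N:ℝ) ^ 2), ec (τ * t)

theorem inv_bst (c : ℝ) (N : ℕ) {g : E3 → ℂ} (hg : Integrable g) (t : ℝ) (x : E3) :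
    𝓕⁻ (bst c N g) (cn t x) = mt c N t * 𝓕⁻ g x := by
  have hi := integrable_bst c N hg
  have hc : Continuous (fun v : E4 => ec (inner ℝ v (cn t x))) := by
    have := continuous_ec
    fun_prop
  have hi2 : Integrable (fun v : E4 => ec (inner ℝ v (cn t x)) * bst c N g v) := by
    refine hi.mono (hc.aestronglyMeasurable.mul hi.aestronglyMeasurable) ?_
    filter_upwards with v
    rw [norm_mul, norm_ec, one_mul]
  rw [Vale.Agent.P106.G.inv_eq, int4 hi2, Vale.Agent.P106.Tri.inv_eq, ← integral_const_mul]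
  refine integral_congr_ae ?_
  filter_upwards with ξ
  simp_rw [bst_cn, inner_cn, ec_add]
  unfold mt
  rw [← integral_indicator measurableSet_Icc, ← integral_mul_const]
  refine integral_congr_ae ?_
  filter_upwards with τ
  by_cases h : τ ∈ Icc (1 - c / (N:ℝ) ^ 2) (1 + c / (N:ℝ) ^ 2)
  · rw [indicator_of_mem h, indicator_of_mem h]; ring
  · rw [indicator_of_notMem h, indicator_of_notMem h]; ring

theorem vol_Icc {c : ℝ} {N : ℕ} (hc : 0 < c) (hN : 1 ≤ N) :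
    (volume (Icc (1 - c / (N:ℝ) ^ 2) (1 + c / (N:ℝ) ^ 2))) = ENNReal.ofReal (2 * c / (N:ℝ) ^ 2) := by
  rw [Real.volume_Icc]
  congr 1
  ring

theorem norm_mt_le {c : ℝ} {N : ℕ} (hc : 0 < c) (hN : 1 ≤ N) (t : ℝ) : ‖mt c N t‖ ≤ 2 * c / (N:ℝ) ^ 2 := by
  have hp : (0:ℝ) < (N:ℝ) ^ 2 := by
    have : (0:ℝ) < N := by exact_mod_cast hN
    positivity
  unfold mt
  have h := norm_setIntegral_le_of_norm_le_const (μ := (volume : Measure ℝ)) (s := Icc (1 - c / (N:ℝ) ^ 2) (1 + c / (N:ℝ) ^ 2))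
    (f := fun τ => ec (τ * t)) (C := 1) (by rw [vol_Icc hc hN]; exact ENNReal.ofReal_lt_top) (fun x hx => (norm_ec _).le)
  refine h.trans (le_of_eq ?_)
  rw [one_mul, Measure.real, vol_Icc hc hN, ENNReal.toReal_ofReal (by positivity)]

theorem norm_ec_sub (a b : ℝ) : ‖ec a - ec b‖ ≤ 2 * Real.pi * |a - b| := by
  have e : ec a - ec b = ec b * (ec (a - b) - 1) := by
    rw [mul_sub, ← ec_add, mul_one]
    congr 2
    ring
  rw [e, norm_mul, norm_ec, one_mul]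
  have h : ec (a - b) = cexp (I * ((2 * Real.pi * (a - b) : ℝ) : ℂ)) := by
    unfold ec
    rw [mul_comm]
  rw [h]
  refine Real.norm_exp_I_mul_ofReal_sub_one_le.trans (le_of_eq ?_)
  rw [Real.norm_eq_abs, abs_mul, abs_of_pos (by positivity)]

theorem le_norm_mt {c : ℝ} {N : ℕ} (hc : 0 < c) (hc2 : c ≤ 1 / 16) (hN : 1 ≤ N) {t : ℝ} (ht : |t| ≤ (N:ℝ) ^ 2) :
    c / (N:ℝ) ^ 2 ≤ ‖mt c N t‖ := by
  have hp : (0:ℝ) < (N:ℝ) ^ 2 := by
    have : (0:ℝ) < N := by exact_mod_cast hN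
    positivity
  set S := Icc (1 - c / (N:ℝ) ^ 2) (1 + c / (N:ℝ) ^ 2) with hS
  have hi1 : IntegrableOn (fun τ => ec (τ * t)) S := by
    have : Continuous (fun τ => ec (τ * t)) := continuous_ec.comp (by fun_prop)
    exact this.integrableOn_Icc
  have hi2 : IntegrableOn (fun _ : ℝ => ec t) S := by
    have : Continuous (fun _ : ℝ => ec t) := continuous_const
    exact this.integrableOn_Icc
  have h1 : ‖mt c N t - ∫ τ in S, ec t‖ ≤ c / (N:ℝ) ^ 2 := by
    unfold mt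
    rw [← integral_sub hi1 hi2]
    have h := norm_setIntegral_le_of_norm_le_const (μ := (volume : Measure ℝ)) (s := S)
      (f := fun τ => ec (τ * t) - ec t) (C := 1 / 2) (by rw [hS, vol_Icc hc hN]; exact ENNReal.ofReal_lt_top) (fun τ hτ => by
        refine (norm_ec_sub _ _).trans ?_
        have e : τ * t - t = (τ - 1) * t := by ring
        rw [e, abs_mul]
        have hτ' : |τ - 1| ≤ c / (N:ℝ) ^ 2 := by
          rw [abs_le]
          rw [hS, mem_Icc] at hτ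
          constructor <;> linarith [hτ.1, hτ.2]
        have h2 : |τ - 1| * |t| ≤ c := by
          calc _ ≤ c / (N:ℝ) ^ 2 * (N:ℝ) ^ 2 := by gcongr
            _ = c := by field_simp
        have hpi := Real.pi_lt_d2
        have hpi0 := Real.pi_pos
        calc _ ≤ 2 * Real.pi * c := by gcongr
          _ ≤ 2 * 3.15 * (1/16) := by gcongr
          _ ≤ 1 / 2 := by norm_num)
    refine h.trans (le_of_eq ?_)
    rw [Measure.real, hS, vol_Icc hc hN, ENNReal.toReal_ofReal (by positivity)]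
    ring
  have h2 : ∫ τ in S, ec t = ((2 * c / (N:ℝ) ^ 2 : ℝ) : ℂ) * ec t := by
    rw [setIntegral_const, Measure.real, hS, vol_Icc hc hN, ENNReal.toReal_ofReal (by positivity), Complex.real_smul]
  have h3 : ‖∫ τ in S, ec t‖ = 2 * c / (N:ℝ) ^ 2 := by
    rw [h2, norm_mul, norm_ec, mul_one, Complex.norm_real, Real.norm_eq_abs, abs_of_pos (by positivity)]
  have h4 := norm_sub_norm_le (∫ τ in S, ec t) (mt c N t)
  rw [norm_sub_rev, h3] at h4
  have e : 2 * c / (N:ℝ) ^ 2 = c / (N:ℝ) ^ 2 + c / (N:ℝ) ^ 2 := by ring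
  linarith

theorem inv_lft {c : ℝ} {N : ℕ} (hN : 1 ≤ N) {l : ℝ} (hl : 0 < l) (s1 s2 : ℝ) {g : E3 → ℂ} (hg : Integrable g) (z : E4) :
    𝓕⁻ (lft l s1 s2 c N g) z = ((2 * l ^ 4 : ℝ) : ℂ) * (mt c N (tz l s1 s2 z) * 𝓕⁻ g (xz l s1 s2 z)) := by
  have hd : (Af l s1 s2).det ≠ 0 := by rw [Af_det]; simp [hl.ne']
  rw [← inv_bst c N hg, Vale.Agent.P106.G.inv_eq, Vale.Agent.P106.G.inv_eq]
  have h := integral_mat4 hd (fun ζ => ec (inner ℝ ζ z) * lft l s1 s2 c N g ζ)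
  rw [Af_det, inv_neg, abs_neg, abs_of_pos (by positivity)] at h
  have e : ∀ y : E4, ec (inner ℝ (mat4 (Af l s1 s2) y) z) * lft l s1 s2 c N g (mat4 (Af l s1 s2) y) =
      ec (inner ℝ y (cn (tz l s1 s2 z) (xz l s1 s2 z))) * bst c N g y := by
    intro y
    rw [inner_Af, lft_eq hN, Bw_Af hl.ne']
  simp only [e] at h
  rw [h, Complex.real_smul, ← mul_assoc, ← Complex.ofReal_mul, mul_inv_cancel₀ (by positivity), Complex.ofReal_one, one_mul]

theorem stFT : StFT := by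
  intro l s1 s2 c N g hl hc hc2 hN hgm hgi
  have hp : (0:ℝ) < (N:ℝ) ^ 2 := by
    have : (0:ℝ) < N := by exact_mod_cast hN
    positivity
  have hd : (Af l s1 s2).det ≠ 0 := by rw [Af_det]; simp [hl.ne']
  have hen : ∀ z, ‖𝓕⁻ (lft l s1 s2 c N g) z‖ₑ = ENNReal.ofReal (2 * l ^ 4 * ‖mt c N (tz l s1 s2 z)‖) * ‖𝓕⁻ g (xz l s1 s2 z)‖ₑ := by
    intro z
    rw [inv_lft hN hl s1 s2 hgi, enorm_mul, enorm_mul, ← mul_assoc, ENNReal.ofReal_mul (by positivity)]
    congr 2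
    · rw [← ofReal_norm_eq_enorm, Complex.norm_real, Real.norm_eq_abs, abs_of_pos (by positivity)]
    · rw [ofReal_norm_eq_enorm]
  have hBm : Measurable (Bw l s1 s2) := by
    have : Bw l s1 s2 = fun ζ => Bw l s1 s2 ζ := rfl
    refine (PiLp.continuous_toLp 2 _).measurable.comp ?_
    refine measurable_pi_iff.2 ?_
    intro i
    fin_cases i <;> simp <;> fun_prop
  have hlm : Measurable (lft l s1 s2 c N g) := by
    have : lft l s1 s2 c N g = fun ζ => bst c N g (Bw l s1 s2 ζ) := by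
      ext1 ζ; exact lft_eq hN l s1 s2 g ζ
    rw [this]
    exact (measurable_bst c N hgm).comp hBm
  refine ⟨?_, ?_, ?_, hlm, ?_⟩
  · intro z
    rw [hen]
    refine mul_le_mul' (ENNReal.ofReal_le_ofReal ?_) le_rfl
    calc 2 * l ^ 4 * ‖mt c N (tz l s1 s2 z)‖ ≤ 2 * l ^ 4 * (2 * c / (N:ℝ) ^ 2) := by
          gcongr; exact norm_mt_le hc hN _
      _ = 4 * l ^ 4 * c / (N:ℝ) ^ 2 := by ring
  · intro z hz
    rw [hen]
    refine mul_le_mul' (ENNReal.ofReal_le_ofReal ?_) le_rfl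
    calc 2 * l ^ 4 * c / (N:ℝ) ^ 2 = 2 * l ^ 4 * (c / (N:ℝ) ^ 2) := by ring
      _ ≤ _ := by gcongr; exact le_norm_mt hc hc2 hN hz
  · have h := lintegral_mat4 hd (fun ζ => ‖lft l s1 s2 c N g ζ‖ₑ ^ 2)
    rw [Af_det, inv_neg, abs_neg, abs_of_pos (by positivity)] at h
    simp_rw [lft_eq hN, Bw_Af hl.ne'] at h
    have h2 : ∫⁻ y, ‖bst c N g y‖ₑ ^ 2 = ENNReal.ofReal (2 * c / (N:ℝ) ^ 2) * ∫⁻ ξ, ‖g ξ‖ₑ ^ 2 := by
      rw [lint4' ((measurable_bst c N hgm).enorm.pow_const 2), ← lintegral_const_mul _ (hgm.enorm.pow_const 2)]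
      refine lintegral_congr fun ξ => ?_
      have e : ∀ τ : ℝ, ‖bst c N g (cn τ ξ)‖ₑ ^ 2 = (Icc (1 - c / (N:ℝ) ^ 2) (1 + c / (N:ℝ) ^ 2)).indicator (fun _ => ‖g ξ‖ₑ ^ 2) τ := by
        intro τ
        rw [bst_cn]
        by_cases h : τ ∈ Icc (1 - c / (N:ℝ) ^ 2) (1 + c / (N:ℝ) ^ 2)
        · rw [indicator_of_mem h, indicator_of_mem h, one_mul]
        · rw [indicator_of_notMem h, indicator_of_notMem h, zero_mul]; simp
      simp_rw [e]
      rw [lintegral_indicator measurableSet_Icc, lintegral_const, Measure.restrict_apply_univ, vol_Icc hc hN, mul_comm]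
    rw [h2] at h
    simp_rw [lft_eq hN]
    have h3 : ENNReal.ofReal (2 * l ^ 4) * (ENNReal.ofReal (2 * c / (N:ℝ) ^ 2) * ∫⁻ ξ, ‖g ξ‖ₑ ^ 2) =
        ∫⁻ ζ, ‖bst c N g (Bw l s1 s2 ζ)‖ₑ ^ 2 := by
      rw [h, ← mul_assoc, ← ENNReal.ofReal_mul (by positivity), mul_inv_cancel₀ (by positivity), ENNReal.ofReal_one, one_mul]
    rw [← h3, ← mul_assoc, ← ENNReal.ofReal_mul (by positivity)]
    congr 2
    ring
  · have h : Integrable (fun y => lft l s1 s2 c N g (mat4 (Af l s1 s2) y)) := by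
      refine (integrable_bst c N hgi).congr ?_
      filter_upwards with y
      rw [lft_eq hN, Bw_Af hl.ne']
    have hdet : LinearMap.det (mat4 (Af l s1 s2)) ≠ 0 := by rwa [mat4_det]
    have hmap := Measure.map_linearMap_addHaar_eq_smul_addHaar (μ := (volume : Measure E4)) hdet
    have h2 := ((mat4_emb hd).integrable_map_iff (g := lft l s1 s2 c N g) (μ := volume)).2 h
    rw [hmap] at h2
    refine (integrable_smul_measure ?_ ENNReal.ofReal_ne_top).1 h2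
    rw [mat4_det, Af_det]
    simp only [ne_eq, ENNReal.ofReal_eq_zero, not_le]
    exact abs_pos.2 (by simp [hl.ne'])

end Vale.Agent.P117.KR
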